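import Vale.Agent.P218GA.Defs

/-! Passage from the unnormalised to the normalised Hausdorff measure. -/

open MeasureTheory Set Filter Topology
open scoped Pointwise NNReal

namespace Vale.Agent.P218RS

open Vale.Agent.P218
open Vale.Agent.P218GA (E3)

lemma rescaled_smul (c : ℝ≥0) (μ : ℝ → Measure E3) (x₀ : E3) (t₀ lam s : ℝ) :
    rescaled 2 (fun t => c • μ t) x₀ t₀ lam s = c • rescaled 2 μ x₀ t₀ lam s := by
  simp only [rescaled, Measure.map_smul]
  rw [smul_comm]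

lemma tangent_smul (c : ℝ≥0) {μ ν : ℝ → Measure E3} {x₀ : E3} {t₀ : ℝ}
    (h : IsTangentFlow 2 μ x₀ t₀ ν) :
    IsTangentFlow 2 (fun t => c • μ t) x₀ t₀ fun s => c • ν s := by
  obtain ⟨h1, lam, h2, h3⟩ := h
  refine ⟨fun s hs => ?_, lam, h2, fun s hs φ h4 h5 => ?_⟩
  · have := h1 s hs
    infer_instance
  · simpa only [rescaled_smul, integral_smul_nnreal_measure] using (h3 s hs φ h4 h5).const_smul c

/-- passage from the unnormalised to the normalised Hausdorff measure -/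
lemma normalise {μ : ℝ → Measure E3} {x₀ : E3} {t₀ : ℝ} {I : Set ℝ} {A : ℝ → Set E3}
    {P : Set E3 → Prop} (hμ : ∀ t ∈ I, μ t = (μHE[2] : Measure E3).restrict (A t))
    (h : ∀ μ : ℝ → Measure E3, (∀ t ∈ I, μ t = (μH[2] : Measure E3).restrict (A t)) →
      TangentFlowUnique 2 μ x₀ t₀ ∧ ∃ S, P S ∧
        ∀ s < 0, ∀ φ : E3 → ℝ, Continuous φ → HasCompactSupport φ →
          Tendsto (fun lam : ℝ => ∫ x, φ x ∂(rescaled 2 μ x₀ t₀ lam s)) atTop
            (𝓝 (∫ x in √(-s) • S, φ x ∂μH[2]))) :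
    TangentFlowUnique 2 μ x₀ t₀ ∧ ∃ S, P S ∧
      ∀ s < 0, ∀ φ : E3 → ℝ, Continuous φ → HasCompactSupport φ →
        Tendsto (fun lam : ℝ => ∫ x, φ x ∂(rescaled 2 μ x₀ t₀ lam s)) atTop
          (𝓝 (∫ x in √(-s) • S, φ x ∂μHE[2])) := by
  obtain ⟨c, hc, e⟩ : ∃ c : ℝ≥0, c ≠ 0 ∧ (μHE[2] : Measure E3) = c • μH[2] :=
    ⟨_, Measure.addHaarScalarFactor_volume_hausdorffMeasure_ne_zero 2, by
      rw [Measure.euclideanHausdorffMeasure_def]; norm_num⟩
  obtain ⟨h1, S, h2, h3⟩ := h (fun t => c⁻¹ • μ t) fun t ht => by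
    rw [hμ t ht, e, Measure.restrict_smul, smul_smul, inv_mul_cancel₀ hc, one_smul]
  refine ⟨fun ν ν' a b s hs => ?_, S, h2, fun s hs φ h4 h5 => ?_⟩
  · have := congrArg (c • ·) (h1 _ _ (tangent_smul c⁻¹ a) (tangent_smul c⁻¹ b) s hs)
    simpa only [smul_smul, mul_inv_cancel₀ hc, one_smul] using this
  · have := (h3 s hs φ h4 h5).const_smul c
    simpa only [rescaled_smul, integral_smul_nnreal_measure, smul_smul, mul_inv_cancel₀ hc,
      one_smul, e, Measure.restrict_smul] using this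

end Vale.Agent.P218RS
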