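import Vale.Agent.P218RS.Defs
import Vale.Agent.P218ST.Defs
import Vale.Agent.P218UZ.Defs

/-! The general definitions, specialised to surfaces in three-space. -/

namespace Vale.Agent.P218RS

open Vale.Agent.P218UZ (E2 E3)

lemma IsSmoothMCF.old {M : Type*} [TopologicalSpace M] [ChartedSpace E2 M] {F : ℝ → M → E3} {T : ℝ}
    (h : IsSmoothMCF (fun i => EuclideanSpace.single i 1 : Fin 2 → E2) F T) :
    P218UZ.IsSmoothMCF F T := ⟨h.smooth, h.immersion, h.flow⟩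

lemma shr_iff {S : Set E3} {Φ : E3 → ℝ} : IsSmoothShrinker S Φ ↔ P218ST.IsSmoothShrinker S Φ :=
  ⟨fun h => ⟨h.1, h.2, h.3, h.4⟩, fun h => ⟨h.1, h.2, h.3, h.4⟩⟩

end Vale.Agent.P218RS
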