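import Vale.Agent.P218.H63.Defs

/-! Smooth mean curvature flow of a parametrised surface, and smooth self-shrinkers, in a Euclidean
space `V`. The charts of the surface take their values in a normed space `D` (a plane) with
coordinate vectors `b 0`, `b 1`. -/

open Set
open scoped Manifold ContDiff RealInnerProductSpace

namespace Vale.Agent.P218RS

open Vale.Agent.P218.H63 (lap)

variable {D V : Type*} [NormedAddCommGroup D] [NormedSpace ℝ D] [NormedAddCommGroup V]
  [InnerProductSpace ℝ V] [FiniteDimensional ℝ V]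

/-- the induced metric `g_ij = ⟨∂_i G, ∂_j G⟩` of a local parametrisation `G` at `u` -/
noncomputable def metric (b : Fin 2 → D) (G : D → V) (u : D) : Matrix (Fin 2) (Fin 2) ℝ :=
  Matrix.of fun i j => ⟪fderiv ℝ G u (b i), fderiv ℝ G u (b j)⟫

/-- the mean curvature vector `g^{ij} (∂_i ∂_j G)^⊥` of a local parametrisation `G` at `u`, where
`⊥` is the orthogonal projection to the normal space, the orthogonal complement of the range of
`DG(u)` -/
noncomputable def meanCurvChart (b : Fin 2 → D) (G : D → V) (u : D) : V :=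
  ∑ i, ∑ j, (metric b G u)⁻¹ i j •
    (LinearMap.range (fderiv ℝ G u).toLinearMap)ᗮ.starProjection
      (fderiv ℝ (fderiv ℝ G) u (b i) (b j))

variable {M : Type*} [TopologicalSpace M] [ChartedSpace D M]

/-- the mean curvature vector at `p` of an immersion `f` of a surface `M` in `V`, computed in the
preferred chart at `p` -/
noncomputable def meanCurv (b : Fin 2 → D) (f : M → V) (p : M) : V :=
  meanCurvChart b (f ∘ (chartAt D p).symm) (chartAt D p p)

/-- `F_t : M → V`, `0 ≤ t < T`, is a smooth mean curvature flow: `F` is smooth on `[0, T) × M`,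
every `F_t` is an immersion, and `∂_t F = H`, the mean curvature vector of `F_t`. -/
structure IsSmoothMCF (b : Fin 2 → D) (F : ℝ → M → V) (T : ℝ) : Prop where
  smooth : ContMDiffOn (𝓘(ℝ, ℝ).prod 𝓘(ℝ, D)) 𝓘(ℝ, V) ∞ (fun z : ℝ × M => F z.1 z.2)
    (Ico 0 T ×ˢ univ)
  immersion : ∀ t ∈ Ico 0 T, ∀ p, Function.Injective (mfderiv 𝓘(ℝ, D) 𝓘(ℝ, V) (F t) p)
  flow : ∀ t ∈ Ioo 0 T, ∀ p, HasDerivAt (fun s => F s p) (meanCurv b (F t) p) t

/-- `S` is the regular zero set of the smooth function `Φ`, and it satisfies the self-shrinker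
equation `div ν = ⟨x, ν⟩ / 2`, `ν = ∇Φ / |∇Φ|` (multiplied by `|∇Φ|³`), that is
`H + x^⊥ / 2 = 0`. -/
structure IsSmoothShrinker (S : Set V) (Φ : V → ℝ) : Prop where
  smooth : ContDiff ℝ ∞ Φ
  mem_iff : ∀ x, x ∈ S ↔ Φ x = 0
  grad_ne : ∀ x ∈ S, gradient Φ x ≠ 0
  shrinker : ∀ x ∈ S, ‖gradient Φ x‖ ^ 2 * lap Φ x
      - ⟪fderiv ℝ (gradient Φ) x (gradient Φ x), gradient Φ x⟫
    = ‖gradient Φ x‖ ^ 2 * ⟪x, gradient Φ x⟫ / 2

end Vale.Agent.P218RS
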