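import Vale.Agent.P218A2.Real
import Vale.Agent.P218GA.Exists
import Vale.Agent.P218TB.Bridge
import Vale.Agent.P218VG.Defs

/-! A self-shrinker with cylindrical and conical ends has finite genus. -/

open Set Filter Topology

namespace Vale.Agent.P218RS

open Vale.Agent.P218GA Vale.Agent.P218ST
open Vale.Agent.P218VA (coreK isCompact_coreK)
open Vale.Agent.P218VG (FiniteGenus)

theorem genus_of_ends {S : Set E3} {Φ : E3 → ℝ} (h : IsSmoothShrinker S Φ)
    (hE : HasCylConeEnds S) : FiniteGenus S := by
  obtain ⟨w, δ, C, h1, h2⟩ := P218TB.exists_tube h hE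
  obtain ⟨k, l, M, _, _, _, _, _, ⟨m⟩⟩ := exists_model h1 h2 hE
  borelize M
  have h3 : ∀ s : S, ∃ x ∈ m.reg, m.F x = s := fun s => m.image.symm.subset s.2
  choose e he hF using h3
  have hc : ∀ x ∈ m.reg, ContinuousAt m.F x := fun x hx => (m.ckAt_F hx).continuousAt
  refine ⟨M, inferInstance, inferInstance, inferInstance, inferInstance, e,
    .of_continuous_injective_isOpenMap (continuous_iff_continuousAt.2 fun s => ?_)
    (fun a b hab => Subtype.ext (by rw [← hF, hab, hF])) fun U ⟨V, hV, hU⟩ => ?_⟩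
  · refine (isCompact_coreK (φ := m.φ) (r := max m.w0 (‖s.1‖ ^ 2 + 1))).tendsto_nhds_of_unique_mapClusterPt
      ?_ fun x hx h4 => ?_
    · filter_upwards [(continuous_subtype_val.norm.pow 2).continuousAt.eventually_lt
        continuousAt_const (lt_add_one (‖s.1‖ ^ 2))] with t ht
      by_contra h5
      obtain ⟨j, p, h6, h7⟩ := P218A2.not_coreK (he t) h5
      have h8 := m.norm_F_pol j ((le_max_left _ _).trans_lt h6)
      have h9 := (le_max_right _ _).trans_lt h6
      rw [show (m.φ j).symm _ = e t from h7.symm, hF] at h8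
      simp only [Pi.pow_apply] at ht
      nlinarith [sq_nonneg ‖s.1‖]
    · have h5 : x ∈ m.reg := fun j hj => by
        have := hx j (hj ▸ (m.φ j).map_target (m.zero_mem j))
        rw [hj, (m.φ j).right_inv (m.zero_mem j), norm_zero] at this
        exact this.not_gt (Real.exp_pos _)
      have h6 := h4.continuousAt_comp (hc x h5)
      rw [show m.F ∘ e = Subtype.val from funext hF] at h6
      exact m.inj h5 (he s) ((eq_of_nhds_neBot (ClusterPt.mono h6
        continuous_subtype_val.continuousAt)).trans (hF s).symm)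
  · have : e '' U = m.reg ∩ m.F ⁻¹' V := by
      ext x
      refine ⟨?_, fun hx => ⟨⟨m.F x, m.F_mem hx.1⟩, hU ▸ hx.2, m.inj (he _) hx.1 (hF _)⟩⟩
      rintro ⟨s, hs, rfl⟩
      exact ⟨he s, by rw [mem_preimage, hF]; exact (hU ▸ hs : s ∈ Subtype.val ⁻¹' V)⟩
    rw [this]
    exact (continuousOn_of_forall_continuousAt hc).isOpen_inter_preimage m.isOpen_reg hV

end Vale.Agent.P218RS
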